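import Vale.Agent.P284.H625.N.SumS

/-!
# P284 (helper174), program N, module N6 (P3): potentials of the direct sum of the translates of `Θ`
-/

open scoped Manifold ContDiff Topology ComplexOrder InnerProductSpace ComplexConjugate
open Filter Set Metric

noncomputable section

set_option linter.unusedSectionVars false

namespace Vale.Agent.P284.H174.N6

open Vale.Agent.P272.K Vale.Agent.P284.H573 Vale.Agent.P284.H619 Vale.Agent.P284.H894.G
  Vale.Agent.P284.H894.W Vale.Agent.P284.H501 Vale.Agent.P284.H501.Core Vale.Agent.P284.H625.N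

/-! ### translation by elements of the group -/

section
variable {n q : ℕ} {X E Γ : Type} [TopologicalSpace X] [ChartedSpace (Cm n) X]
  [TopologicalSpace E] [Group Γ] [MulAction Γ E] {p : E → X} {F : E → Cm q}
  {A : Γ → (Cm q ≃ₗ[ℂ] Cm q)} {a : Γ → Cm q}

theorem p_smul (hG : IsGalois Γ p) (γ : Γ) (y : E) : p (γ • y) = p y :=
  ((hG.orb y (γ • y)).2 ⟨γ, rfl⟩).symm

theorem VS_le (hG : IsGalois Γ p) (hA : ∀ γ y, F (γ • y) = A γ (F y) + a γ) (γ : Γ) {y : E}
    {e : Chart n X} {ξ : Cm n} (h : ξ ∈ VS p F y e) : ξ ∈ VS p F (γ • y) e := by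
  intro f hf
  have h1 : ∀ᶠ y' in 𝓝 y, F (γ • y') = f (e (p (γ • y'))) :=
    ((hG.cont γ).continuousAt (x := y)).eventually hf
  have h2 : ∀ᶠ y' in 𝓝 y, F y' = (fun z => (A γ).symm.toContinuousLinearEquiv (f z - a γ))
      (e (p y')) := by
    filter_upwards [h1] with y' h3
    rw [hA, p_smul hG] at h3
    show F y' = (A γ).symm (f (e (p y')) - a γ)
    rw [← h3, add_sub_cancel_right, LinearEquiv.symm_apply_apply]
  have h3 := h (fun z => (A γ).symm.toContinuousLinearEquiv (f z - a γ)) h2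
  have h4 : fderiv ℂ (fun z => (A γ).symm.toContinuousLinearEquiv (f z - a γ)) (e (p y)) =
      ((A γ).symm.toContinuousLinearEquiv : Cm q →L[ℂ] Cm q).comp
        (fderiv ℂ (fun z => f z - a γ) (e (p y))) :=
    (A γ).symm.toContinuousLinearEquiv.comp_fderiv
  rw [h4, fderiv_sub_const] at h3
  have h5 : (A γ).symm.toContinuousLinearEquiv (fderiv ℂ f (e (p y)) ξ) = 0 := h3
  rw [p_smul hG]
  exact (map_eq_zero_iff _ (A γ).symm.toContinuousLinearEquiv.injective).1 h5

theorem VS_smul (hG : IsGalois Γ p) (hA : ∀ γ y, F (γ • y) = A γ (F y) + a γ) (γ : Γ) (y : E)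
    (e : Chart n X) : VS p F (γ • y) e = VS p F y e := by
  ext ξ
  refine ⟨fun h => ?_, VS_le hG hA γ⟩
  have h1 := VS_le hG hA γ⁻¹ h
  rwa [inv_smul_smul] at h1

/-- the periods of a conjugate -/
theorem c_conj [Nonempty E] {G : Subgroup Γ} [G.Normal]
    (hA : ∀ γ y, F (γ • y) = A γ (F y) + a γ) {c : G → Cm q}
    (hc : ∀ (g : G) y, F ((g : Γ) • y) = F y + c g) (γ : Γ) (g : G) :
    c (MulAut.conjNormal γ g) = A γ (c g) := by
  obtain ⟨y⟩ := ‹Nonempty E›
  have h1 := hc (MulAut.conjNormal γ g) (γ • y)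
  rw [MulAut.conjNormal_apply, smul_smul, inv_mul_cancel_right, ← smul_smul, hA, hc, map_add,
    hA, add_right_comm] at h1
  exact (add_left_cancel h1).symm

end

/-! ### the theorem -/

section
variable {n q : ℕ} {X E Γ : Type} [TopologicalSpace X] [ChartedSpace (Cm n) X]
  [TopologicalSpace E] [Group Γ] [MulAction Γ E] {p : E → X} {F : E → Cm q}
  {G : Subgroup Γ} [Fintype (Γ ⧸ G)]
  {W : Type} [NormedAddCommGroup W] [InnerProductSpace ℂ W]
  {Θ : E → Chart n X → (Cm n →L[ℂ] W)}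

open Classical in
/-- the inclusion of a component -/
def inc (G : Subgroup Γ) [Fintype (Γ ⧸ G)] (i : Γ ⧸ G) : W →L[ℂ] Tot G W :=
  (toTot G).comp (ContinuousLinearMap.pi fun j => if j = i then ContinuousLinearMap.id ℂ W else 0)

open Classical in
theorem inc_apply (i : Γ ⧸ G) (x : W) (j : Γ ⧸ G) : inc G i x j = if j = i then x else 0 := by
  show (if j = i then ContinuousLinearMap.id ℂ W else 0) x = _
  split_ifs <;> rfl

theorem tot_apply_sum {ι : Type} (s : Finset ι) (f : ι → Tot G W) (j : Γ ⧸ G) :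
    (∑ i ∈ s, f i) j = ∑ i ∈ s, f i j := by
  classical
  induction s using Finset.induction_on with
  | empty => rfl
  | insert b s hb ih => rw [Finset.sum_insert hb, Finset.sum_insert hb, PiLp.add_apply, ih]

theorem sum_inc (f : Γ ⧸ G → W) (j : Γ ⧸ G) : (∑ i, inc G i (f i)) j = f j := by
  classical
  rw [tot_apply_sum]
  simp only [inc_apply]
  rw [Finset.sum_ite_eq]
  simp

/-- the potentials of the direct sum, one point at a time -/
theorem vPot_sum {A : Γ → (Cm q ≃ₗ[ℂ] Cm q)} {a : Γ → Cm q} (hG : IsGalois Γ p)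
    (hA : ∀ γ y, F (γ • y) = A γ (F y) + a γ) {t : Cm q} {u : Γ ⧸ G → E → W}
    (hu : ∀ i, VPot p F (A (tr G i) t + a (tr G i)) W Θ (u i)) :
    VPot p F t (Tot G W) (sumT G Θ) (fun y => toTot G fun i => u i (tr G i • y)) := by
  have hFi : ∀ {y : E} (i : Γ ⧸ G), F y = t → F (tr G i • y) = A (tr G i) t + a (tr G i) :=
    fun i h => by rw [hA, h]
  have hat : ∀ {y : E} {e : Chart n X} (i : Γ ⧸ G), At e (p y) → At e (p (tr G i • y)) :=
    fun i h => by rw [p_smul hG]; exact h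
  have hco : ∀ (y : E) (i : Γ ⧸ G), ContinuousAt (fun y : E => tr G i • y) y :=
    fun y i => (hG.cont (tr G i)).continuousAt
  refine ⟨fun y e hy he => ?_, fun y e e' hy he he' ξ hξ => ?_, fun y e hy he c => ?_⟩
  · choose f h1 h2 using fun i => (hu i).hol (tr G i • y) e (hFi i hy) (hat i he)
    refine ⟨fun z => ∑ i, (inc G i).comp (f i z), ?_, ?_⟩
    · refine Finset.analyticAt_fun_sum _ fun i _ => ?_
      have h3 := h1 i
      rw [p_smul hG] at h3
      exact ((ContinuousLinearMap.compL ℂ (Cm n) W (Tot G W)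
        (inc G i)).analyticAt _).comp h3
    · have h3 : ∀ᶠ y' in 𝓝 y, ∀ i, F (tr G i • y') = A (tr G i) t + a (tr G i) →
          ∀ ξ ∈ VS p F (tr G i • y') e, Θ (tr G i • y') e ξ = f i (e (p (tr G i • y'))) ξ :=
        eventually_all.2 fun i => (hco y i).eventually (h2 i)
      filter_upwards [h3] with y' h4 h5 ξ hξ
      ext j
      rw [sumT_apply, h4 j (hFi j h5) ξ (by rw [VS_smul hG hA]; exact hξ), p_smul hG,
        ContinuousLinearMap.sum_apply]
      exact (sum_inc (fun i => f i (e (p y')) ξ) j).symm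
  · ext i
    rw [sumT_apply, sumT_apply, (hu i).change (tr G i • y) e e' (hFi i hy) (hat i he) (hat i he') ξ
      (by rw [VS_smul hG hA]; exact hξ), p_smul hG]
  · choose g h h1 h2 h3 using fun i => (hu i).pot (tr G i • y) e (hFi i hy) (hat i he) (c i)
    have h1' : ∀ i, AnalyticAt ℂ (g i) (e (p y)) := fun i => by
      have := h1 i
      rwa [p_smul hG] at this
    have h2' : ∀ i, AnalyticAt ℂ (h i) (e (p y)) := fun i => by
      have := h2 i
      rwa [p_smul hG] at this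
    refine ⟨fun z => ∑ i, g i z, fun z => ∑ i, h i z, Finset.analyticAt_fun_sum _ fun i _ => h1' i,
      Finset.analyticAt_fun_sum _ fun i _ => h2' i, ?_⟩
    have h4 := eventually_all.2 fun i => (hco y i).eventually (h3 i)
    have h5 : ∀ᶠ y' in 𝓝 y, ∀ i, DifferentiableAt ℂ (g i) (e (p y')) :=
      eventually_all.2 fun i => by
        have h6 : ContinuousAt (fun y' => e (p y')) y :=
          (e.continuousAt he.2).comp hG.cov.continuous.continuousAt
        exact (h6.eventually (h1' i).eventually_analyticAt).mono fun _ h7 => h7.differentiableAt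
    filter_upwards [h4, h5] with y' h6 h7 h8
    refine ⟨?_, fun ξ hξ => ?_⟩
    · rw [PiLp.inner_apply, map_sum, ← Finset.sum_add_distrib]
      refine Finset.sum_congr rfl fun i _ => ?_
      have h9 := (h6 i (hFi i h8)).1
      rw [p_smul hG] at h9
      exact h9
    · rw [fderiv_fun_sum fun i _ => h7 i, ContinuousLinearMap.sum_apply, PiLp.inner_apply]
      refine Finset.sum_congr rfl fun i _ => ?_
      have h9 := (h6 i (hFi i h8)).2 ξ (by rw [VS_smul hG hA]; exact hξ)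
      rw [p_smul hG] at h9
      exact h9

variable [G.Normal] {w : Chart n X → Cm n → Matrix (Fin n) (Fin n) ℂ} {B : ℝ}

theorem conj_tr (k : G) (i : Γ ⧸ G) : coc G (k : Γ) i = MulAut.conjNormal (tr G i) k := by
  apply Subtype.ext
  rw [coc_mem, MulAut.conjNormal_apply]

theorem tr_smul_G (k : G) (i : Γ ⧸ G) (y : E) :
    tr G i • k • y = (MulAut.conjNormal (tr G i) k : G) • tr G i • y := by
  show tr G i • (k : Γ) • y = ((MulAut.conjNormal (tr G i) k : G) : Γ) • tr G i • y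
  rw [MulAut.conjNormal_apply, smul_smul, smul_smul, inv_mul_cancel_right]

/-- equivariance of the direct sum -/
theorem vEqui_sum {A : Γ → (Cm q ≃ₗ[ℂ] Cm q)} {a : Γ → Cm q} (hG : IsGalois Γ p)
    (hA : ∀ γ y, F (γ • y) = A γ (F y) + a γ) {c : G → Cm q}
    (hc : ∀ (g : G) y, F ((g : Γ) • y) = F y + c g)
    {π : G →* (W ≃ₗᵢ[ℂ] W)} {t : Cm q} {u : Γ ⧸ G → E → W}
    (hu : ∀ i, ∀ L : Subgroup G, (∀ g ∈ L, c g = 0) →
      VEqui p F (A (tr G i) t + a (tr G i)) L π Θ (u i)) (L : Subgroup G)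
    (hL : ∀ g ∈ L, c g = 0) :
    VEqui p F t L ((indR G π).comp G.subtype) (sumT G Θ)
      (fun y => toTot G fun i => u i (tr G i • y)) := by
  rcases isEmpty_or_nonempty E with hE | hE
  · exact ⟨fun k _ y => isEmptyElim y, fun k _ => ⟨0, fun y => isEmptyElim y⟩⟩
  have hFi : ∀ {y : E} (i : Γ ⧸ G), F y = t → F (tr G i • y) = A (tr G i) t + a (tr G i) :=
    fun i h => by rw [hA, h]
  have hat : ∀ {y : E} {e : Chart n X} (i : Γ ⧸ G), At e (p y) → At e (p (tr G i • y)) :=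
    fun i h => by rw [p_smul hG]; exact h
  set M : Γ ⧸ G → Subgroup G := fun i => L.map (MulAut.conjNormal (tr G i)).toMonoidHom with hM
  have hk : ∀ i, ∀ k ∈ L, MulAut.conjNormal (tr G i) k ∈ M i := fun i k hk =>
    Subgroup.mem_map_of_mem _ hk
  have hM0 : ∀ i, ∀ g ∈ M i, c g = 0 := by
    intro i g hg
    obtain ⟨k, hk1, rfl⟩ := Subgroup.mem_map.1 hg
    show c (MulAut.conjNormal (tr G i) k) = 0
    rw [c_conj hA hc, hL k hk1, map_zero]
  have hV := fun i => hu i (M i) (hM0 i)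
  refine ⟨fun k hkL y e hy he ξ hξ => ?_, fun k hkL => ?_⟩
  · ext i
    rw [sumT_apply, tr_smul_G, (hV i).form _ (hk i k hkL) (tr G i • y) e (hFi i hy) (hat i he) ξ
      (by rw [VS_smul hG hA]; exact hξ)]
    show _ = indR G π (k : Γ) (sumT G Θ y e ξ) i
    rw [indR_mem, conj_tr, sumT_apply]
  · choose b hb using fun i => (hV i).pot _ (hk i k hkL)
    refine ⟨toTot G b, fun y hy => ?_⟩
    ext i
    show u i (tr G i • k • y) = indR G π (k : Γ) (toTot G fun i => u i (tr G i • y)) i + b i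
    rw [tr_smul_G, hb i _ (hFi i hy), indR_mem, conj_tr, toTot_apply]

/-- **(P3)** -/
theorem sum_pot (hG : IsGalois Γ p)
    {A : Γ → (Cm q ≃ₗ[ℂ] Cm q)} {a : Γ → Cm q} (hA : ∀ γ y, F (γ • y) = A γ (F y) + a γ)
    {c : G → Cm q} (hc : ∀ (g : G) y, F ((g : Γ) • y) = F y + c g)
    {π : G →* (W ≃ₗᵢ[ℂ] W)} {M₀ : Set (Cm q)} (hM₀ : IsMeagre M₀)
    (hpot : ∀ t ∉ M₀, ∃ u : E → W, VPot p F t W Θ u ∧
      ∀ L : Subgroup G, (∀ g ∈ L, c g = 0) → VEqui p F t L π Θ u) :
    ∃ M₁ : Set (Cm q), IsMeagre M₁ ∧ ∀ t ∉ M₁, ∃ u : E → Tot G W,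
      VPot p F t (Tot G W) (sumT G Θ) u ∧ ∀ L : Subgroup G, (∀ g ∈ L, c g = 0) →
        VEqui p F t L ((indR G π).comp G.subtype) (sumT G Θ) u := by
  refine ⟨⋃ i : Γ ⧸ G, {t | A (tr G i) t + a (tr G i) ∈ M₀}, isMeagre_iUnion fun i => ?_,
    fun t ht => ?_⟩
  · set φ : Cm q ≃ₜ Cm q := (A (tr G i)).toContinuousLinearEquiv.toHomeomorph.trans
      (Homeomorph.addRight (a (tr G i))) with hφ
    have h1 : {t | A (tr G i) t + a (tr G i) ∈ M₀} = φ.symm '' M₀ := by
      rw [φ.symm.image_eq_preimage_symm]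
      rfl
    rw [h1]
    exact φ.symm.isInducing.isMeagre_image hM₀
  · have h1 : ∀ i : Γ ⧸ G, A (tr G i) t + a (tr G i) ∉ M₀ := fun i h =>
      ht (mem_iUnion.2 ⟨i, h⟩)
    choose u h2 h3 using fun i => hpot _ (h1 i)
    exact ⟨_, vPot_sum hG hA h2, fun L hL => vEqui_sum hG hA hc h3 L hL⟩

end

end Vale.Agent.P284.H174.N6
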